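import Vale.Agent.P290Z.Main

open Set Filter Vale.Agent.P290.All Vale.Agent.P290.H805 Vale.Agent.P290.R2.H596
open scoped Manifold ContDiff Topology

/-- (1) Every strongly dominable compact Hausdorff complex surface is Oka.
(2) Let `F` be a proper family of complex surfaces over a space `T`, with Hausdorff total space `E`
and a continuous relative two-form `vol`, nowhere zero and holomorphic on the fibres, and let the
fibre over `s` be a Kummer surface. Then the fibres over all parameters `t` in a neighbourhood of
`s` are Oka. Moreover every Hausdorff complex surface `X` which for parameters `t` arbitrarily near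
`s` is the image of the fibre over `t` under a holomorphic map with nowhere vanishing Jacobian
determinant (for example an isomorphism) is Oka. -/
theorem Vale.Agent.Results.P290.NearKummerOka.result :
    (∀ (X : Type) [TopologicalSpace X] [T2Space X] [CompactSpace X] [ChartedSpace C2 X]
      [IsManifold 𝓘(ℂ, C2) ω X],
      (∀ x : X, ∃ G : C2 → X, (∀ v, Hol G v) ∧ G 0 = x ∧ Etale G 0) → IsOka X) ∧
    ∀ (T E : Type) [TopologicalSpace T] [TopologicalSpace E] [T2Space E] (F : Family T E),
      IsProperMap F.p → ∀ vol : E → T × C2 → ℂ, RelForm F vol → ∀ s : T, IsKummer (Fib F s) →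
      (∀ᶠ t in 𝓝 s, IsOka (Fib F t)) ∧
      ∀ (X : Type) [TopologicalSpace X] [T2Space X] [ChartedSpace C2 X]
        [IsManifold 𝓘(ℂ, C2) ω X],
        s ∈ closure {t | ∃ b : Fib F t → X, Function.Surjective b ∧ ∀ y, Hol b y ∧
          (fderiv ℂ (fun w => chartAt C2 (b y) (b ((chartAt C2 y).symm w)))
            (chartAt C2 y y)).det ≠ 0} → IsOka X :=
  ⟨fun X _ _ _ _ _ h => Vale.Agent.P290Z.oka_of_dom X h, fun _ _ _ _ _ _ hp _ hv _ hs =>
    ⟨Vale.Agent.P290Z.oka_near hp hv hs,
      fun X _ _ _ _ hX => Vale.Agent.P290Z.oka_approached hp hv hs X hX⟩⟩
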